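import Vale.Agent.P266.DPhi

set_option maxRecDepth 100000

namespace Vale.Agent.P266

def qs0 : List (ℕ × ℕ × ℕ × ℕ) :=
  [(0, 0, 0, 0), (0, 0, 0, 1), (0, 0, 0, 2), (0, 0, 0, 3), (0, 0, 0, 4), (0, 0, 0, 5), (0, 0, 0, 6), (0, 0, 0, 7), (0, 0, 1, 1), (0, 0, 1, 2), (0, 0, 1, 3), (0, 0, 1, 4), (0, 0, 1, 5), (0, 0, 1, 6), (0, 0, 2, 2), (0, 0, 2, 3), (0, 0, 2, 4), (0, 0, 2, 5), (0, 0, 2, 6), (0, 0, 3, 3), (0, 0, 3, 4), (0, 0, 3, 5), (0, 0, 3, 6), (0, 1, 1, 1), (0, 1, 1, 2), (0, 1, 1, 3), (0, 1, 2, 2), (0, 1, 2, 3), (0, 1, 3, 3), (0, 2, 2, 2), (0, 2, 2, 3), (0, 2, 3, 3), (0, 3, 3, 3)]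

theorem chkA0 : chkQs (2 ^ 2 + 1) 10 raw qs0 = true := by decide +kernel

def qs1 : List (ℕ × ℕ × ℕ × ℕ) :=
  [(0, 0, 1, 7), (0, 0, 2, 7), (0, 0, 3, 7), (0, 0, 4, 4), (0, 0, 4, 5), (0, 0, 4, 6), (0, 0, 5, 5), (0, 0, 5, 6), (0, 0, 6, 6), (0, 1, 1, 4), (0, 1, 1, 5), (0, 1, 1, 6), (0, 1, 2, 4), (0, 1, 2, 5), (0, 1, 2, 6), (0, 1, 3, 4), (0, 1, 3, 5), (0, 1, 3, 6), (0, 2, 2, 4), (0, 2, 2, 5), (0, 2, 2, 6), (0, 2, 3, 4), (0, 2, 3, 5), (0, 2, 3, 6), (0, 3, 3, 4), (0, 3, 3, 5), (0, 3, 3, 6), (1, 1, 1, 1), (1, 1, 1, 2), (1, 1, 1, 3), (1, 1, 2, 2), (1, 1, 2, 3), (1, 1, 3, 3), (1, 2, 2, 2), (1, 2, 2, 3), (1, 2, 3, 3), (1, 3, 3, 3), (2, 2, 2, 2), (2, 2, 2, 3), (2, 2, 3, 3), (2, 3, 3, 3), (3, 3, 3, 3)]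

theorem chkA1 : chkQs (2 ^ 50 + 1) 17 raw qs1 = true := by decide +kernel

def qs2 : List (ℕ × ℕ × ℕ × ℕ) :=
  [(0, 0, 4, 7), (0, 0, 5, 7), (0, 0, 6, 7), (0, 1, 1, 7), (0, 1, 2, 7), (0, 1, 3, 7), (0, 1, 4, 4), (0, 1, 4, 5), (0, 1, 4, 6), (0, 1, 5, 5), (0, 1, 5, 6), (0, 1, 6, 6), (0, 2, 2, 7), (0, 2, 3, 7), (0, 2, 4, 4), (0, 2, 4, 5), (0, 2, 4, 6), (0, 2, 5, 5), (0, 2, 5, 6), (0, 2, 6, 6), (0, 3, 3, 7), (0, 3, 4, 4), (0, 3, 4, 5), (0, 3, 4, 6), (0, 3, 5, 5), (0, 3, 5, 6), (0, 3, 6, 6), (1, 1, 1, 4), (1, 1, 1, 5), (1, 1, 1, 6), (1, 1, 2, 4), (1, 1, 2, 5), (1, 1, 2, 6), (1, 1, 3, 4), (1, 1, 3, 5), (1, 1, 3, 6), (1, 2, 2, 4), (1, 2, 2, 5), (1, 2, 2, 6), (1, 2, 3, 4), (1, 2, 3, 5), (1, 2, 3, 6), (1, 3, 3, 4), (1, 3, 3, 5),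 (1, 3, 3, 6), (2, 2, 2, 4), (2, 2, 2, 5), (2, 2, 2, 6), (2, 2, 3, 4), (2, 2, 3, 5), (2, 2, 3, 6), (2, 3, 3, 4), (2, 3, 3, 5), (2, 3, 3, 6), (3, 3, 3, 4), (3, 3, 3, 5), (3, 3, 3, 6)]

theorem chkA2 : chkQs (2 ^ 101 + 1) 24 raw qs2 = true := by decide +kernel

def qs3 : List (ℕ × ℕ × ℕ × ℕ) :=
  [(0, 0, 7, 7), (0, 1, 4, 7), (0, 1, 5, 7), (0, 1, 6, 7), (0, 2, 4, 7), (0, 2, 5, 7), (0, 2, 6, 7), (0, 3, 4, 7), (0, 3, 5, 7), (0, 3, 6, 7), (0, 4, 4, 4), (0, 4, 4, 5), (0, 4, 4, 6), (0, 4, 5, 5), (0, 4, 5, 6), (0, 4, 6, 6), (0, 5, 5, 5), (0, 5, 5, 6), (0, 5, 6, 6), (0, 6, 6, 6), (1, 1, 1, 7), (1, 1, 2, 7), (1, 1, 3, 7), (1, 1, 4, 4), (1, 1, 4, 5), (1, 1, 4, 6), (1, 1, 5, 5), (1, 1, 5, 6), (1, 1, 6, 6), (1, 2, 2, 7), (1, 2, 3,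 7), (1, 2, 4, 4), (1, 2, 4, 5), (1, 2, 4, 6), (1, 2, 5, 5), (1, 2, 5, 6), (1, 2, 6, 6), (1, 3, 3, 7), (1, 3, 4, 4), (1, 3, 4, 5), (1, 3, 4, 6), (1, 3, 5, 5), (1, 3, 5, 6), (1, 3, 6, 6), (2, 2, 2, 7), (2, 2, 3, 7), (2, 2, 4, 4), (2, 2, 4, 5), (2, 2, 4, 6), (2, 2, 5, 5), (2, 2, 5, 6), (2, 2, 6, 6), (2, 3, 3, 7), (2, 3, 4, 4), (2, 3, 4, 5), (2, 3, 4, 6), (2, 3, 5, 5), (2, 3, 5, 6), (2, 3, 6, 6), (3, 3, 3, 7), (3, 3, 4, 4), (3, 3, 4, 5), (3, 3, 4, 6), (3, 3, 5, 5), (3, 3, 5, 6), (3, 3, 6, 6)]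

theorem chkA3 : chkQs (2 ^ 149 + 1) 24 raw qs3 = true := by decide +kernel

def qs4 : List (ℕ × ℕ × ℕ × ℕ) :=
  [(0, 1, 7, 7), (0, 2, 7, 7), (0, 3, 7, 7), (0, 4, 4, 7), (0, 4, 5, 7), (0, 4, 6, 7), (0, 5, 5, 7), (0, 5, 6, 7), (0, 6, 6, 7), (1, 1, 4, 7), (1, 1, 5, 7), (1, 1, 6, 7), (1, 2, 4, 7), (1, 2, 5, 7), (1, 2, 6, 7), (1, 3, 4, 7), (1, 3, 5, 7), (1, 3, 6, 7), (1, 4, 4, 4), (1, 4, 4, 5), (1, 4, 4, 6), (1, 4, 5, 5), (1, 4, 5, 6), (1, 4, 6, 6), (1, 5, 5, 5), (1, 5, 5, 6), (1, 5, 6, 6), (1, 6, 6, 6), (2, 2, 4, 7), (2, 2, 5, 7)]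

theorem chkA4 : chkQs (2 ^ 200 + 1) 31 raw qs4 = true := by decide +kernel

def qs5 : List (ℕ × ℕ × ℕ × ℕ) :=
  [(2, 2, 6, 7), (2, 3, 4, 7), (2, 3, 5, 7), (2, 3, 6, 7), (2, 4, 4, 4), (2, 4, 4, 5), (2, 4, 4, 6), (2, 4, 5, 5), (2, 4, 5, 6), (2, 4, 6, 6), (2, 5, 5, 5), (2, 5, 5, 6), (2, 5, 6, 6), (2, 6, 6, 6), (3, 3, 4, 7), (3, 3, 5, 7), (3, 3, 6, 7), (3, 4, 4, 4), (3, 4, 4, 5), (3, 4, 4, 6), (3, 4, 5, 5), (3, 4, 5, 6), (3, 4, 6, 6), (3, 5, 5, 5), (3, 5, 5, 6), (3, 5, 6, 6), (3, 6, 6, 6)]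

theorem chkA5 : chkQs (2 ^ 200 + 1) 31 raw qs5 = true := by decide +kernel


end Vale.Agent.P266
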